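import Vale.Agent.P228.MathlibUsed

/-! The pointwise regularity class used in the hand-in `Pointwise` for P228. -/

namespace Vale.Agent.P228

open MeasureTheory Metric
open scoped ENNReal

variable {E : Type*} [NormedAddCommGroup E] [NormedSpace ℝ E] [MeasureSpace E]

/-- The Gagliardo energy of order `s` and exponent `q` of a map `f` on a subset `U` of a space `E`
of dimension `n`, that is, the `q`-th power of the Sobolev-Slobodeckij `W^{s,q}` seminorm: the
double integral over `U × U` of `‖f x - f y‖ ^ q / ‖x - y‖ ^ (n + s q)`. -/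
noncomputable def sobEnergy (n : ℕ) (s q : ℝ) (f : E → E) (U : Set E) : ℝ≥0∞ :=
  ∫⁻ x in U, ∫⁻ y in U, ENNReal.ofReal (‖f x - f y‖ ^ q / ‖x - y‖ ^ (n + s * q))

/-- `G` is the weak (distributional) derivative of `f` on the open set `U`: `G` is locally
integrable on `U`, and integration by parts holds against every smooth function with compact
support in `U`. -/
def WeakDerivOn (f : E → E) (G : E → E →L[ℝ] E) (U : Set E) : Prop :=
  LocallyIntegrableOn G U ∧
    ∀ η : E → ℝ, ContDiff ℝ (⊤ : ℕ∞) η → HasCompactSupport η → tsupport η ⊆ U → ∀ v : E,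
      ∫ x, (fderiv ℝ η x v) • f x = - ∫ x, η x • G x v

/-- The map `f` of the `n`-dimensional space `E` is regular at the point `a`: either it is
pointwise Hoelder at `a` with an exponent larger than `(n-1)/(n+1)` (for example differentiable
at `a`), or on some ball about `a` it is of Sobolev-Slobodeckij class `W^{s,q}` with
`0 < s < 1 ≤ q` and `s * min q (n+1) > n - 1`, or on some ball about `a` it is of Sobolev class
`W^{1,q}` with `q ≥ 1` and `q > n - 1`. -/
def RegularAt (n : ℕ) (f : E → E) (a : E) : Prop :=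
  (∃ α C r : ℝ, 0 < α ∧ ((n : ℝ) - 1) / (n + 1) < α ∧ 0 < r ∧
    ∀ x ∈ ball a r, ‖f x - f a‖ ≤ C * ‖x - a‖ ^ α) ∨
  (∃ s q r : ℝ, 0 < s ∧ s < 1 ∧ 1 ≤ q ∧ n - 1 < s * min q (n + 1) ∧ 0 < r ∧
    sobEnergy n s q f (ball a r) < ∞) ∨
  (∃ q r : ℝ, 1 ≤ q ∧ n - 1 < q ∧ 0 < r ∧ ∃ G : E → E →L[ℝ] E,
    WeakDerivOn f G (ball a r) ∧ ∫⁻ x in ball a r, ENNReal.ofReal (‖G x‖ ^ q) < ∞)

end Vale.Agent.P228
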