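import Mathlib.Algebra.AffineMonoid.Basic
import Mathlib.Algebra.AffineMonoid.UniqueSums
import Mathlib.Algebra.GroupWithZero.Action.Pointwise.Finset
import Mathlib.Algebra.Homology.Homotopy
import Mathlib.Algebra.Ring.Action.Pointwise.Finset
import Mathlib.Algebra.Ring.IsFormallyReal
import Mathlib.Analysis.CStarAlgebra.ContinuousMap
import Mathlib.Analysis.Calculus.BumpFunction.SmoothApprox
import Mathlib.Analysis.Calculus.FDeriv.Symmetric
import Mathlib.Analysis.Calculus.LineDeriv.IntegrationByParts
import Mathlib.Analysis.Complex.Tietze
import Mathlib.Analysis.Convex.Integral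
import Mathlib.Analysis.InnerProductSpace.NormDet
import Mathlib.Analysis.Normed.Group.Ultra
import Mathlib.Analysis.SpecialFunctions.Complex.CircleAddChar
import Mathlib.Analysis.SpecialFunctions.Pow.Integral
import Mathlib.Computability.Reduce
import Mathlib.Data.Finset.DenselyOrdered
import Mathlib.Data.Finset.Finsupp
import Mathlib.Data.Finsupp.Pointwise
import Mathlib.Data.Int.Star
import Mathlib.Data.Num.Lemmas
import Mathlib.Dynamics.Flow
import Mathlib.Geometry.Euclidean.Inversion.Basic
import Mathlib.Geometry.Manifold.PartitionOfUnity
import Mathlib.LinearAlgebra.Matrix.Swap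
import Mathlib.LinearAlgebra.QuadraticForm.Prod
import Mathlib.LinearAlgebra.QuadraticForm.Signature
import Mathlib.LinearAlgebra.SymplecticGroup
import Mathlib.MeasureTheory.Measure.RegularityCompacts
import Mathlib.NumberTheory.Padics.ProperSpace
import Mathlib.NumberTheory.Zsqrtd.GaussianInt
import Mathlib.Order.CompletePartialOrder
import Mathlib.RingTheory.Etale.Weakly
import Mathlib.RingTheory.Flat.TorsionFree
import Mathlib.RingTheory.PowerSeries.Basic
import Mathlib.RingTheory.SimpleRing.Principal
import Mathlib.RingTheory.TotallySplit
import Mathlib.Tactic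
import Mathlib.Topology.Baire.LocallyCompactRegular
import Mathlib.Topology.Connected.Separation
import Mathlib.Topology.Filter
import Mathlib.Topology.MetricSpace.Ultra.TotallySeparated
import Mathlib.Topology.UniformSpace.Uniformizable

/-! The part of Mathlib that the development of this folder uses. -/
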